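import Vale.Agent.P181.GK.Defs
import Vale.Agent.P181.TL.H968.Num

set_option autoImplicit false

/-!
# P181, GK: [NUM], the parameters exist
-/

namespace Vale.Agent.P181.GK.H694

open Vale.Agent.P181.GK
open Vale.Agent.P181.VT (nn)

/-- the block number -/
lemma exists_k (b t : ℕ) (hb : 40 ≤ b) :
    ∃ k, 1 ≤ k ∧ 20 * k ≤ b ∧ b < 20 * k + 40 ∧ (k * 5) % 2 = t % 2 :=
  ⟨b / 20 - (b / 20 + t) % 2, by omega, by omega, by omega, by omega⟩

/-- the size `c` and the exponent `s` -/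
lemma exists_c (A B t : ℕ) (hB : 1 ≤ B) (ht : t ≤ A * B) (hp : B % 2 = t % 2) :
    ∃ c s, 1 ≤ s ∧ A * B + 2 * s = B * c + t ∧ c ≤ A + 2 := by
  obtain ⟨α, hα⟩ : ∃ α, α + t = A * B := ⟨A * B - t, by omega⟩
  have h1 : α < B * (α / B + 1) := Nat.lt_mul_div_succ α hB
  have h2 : α / B ≤ A := by
    apply Nat.div_le_of_le_mul
    rw [Nat.mul_comm]
    omega
  obtain ⟨x, hx⟩ : ∃ x, α + x = B * (α / B + 1) := ⟨B * (α / B + 1) - α, by omega⟩
  by_cases hx2 : x % 2 = 0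
  · exact ⟨α / B + 1, x / 2, by omega, by omega, by omega⟩
  · have hB2 : B % 2 = 1 := by
      by_contra hcon
      have hB0 : B % 2 = 0 := by omega
      have h3 : (A * B) % 2 = 0 := by rw [Nat.mul_mod, hB0, mul_zero, Nat.zero_mod]
      have h4 : (B * (α / B + 1)) % 2 = 0 := by rw [Nat.mul_mod, hB0, zero_mul, Nat.zero_mod]
      omega
    have h5 : B * (α / B + 1 + 1) = B * (α / B + 1) + B := by ring
    exact ⟨α / B + 1 + 1, (x + B) / 2, by omega, by omega, by omega⟩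

/-- `a ^ 12 ≤ 3 ^ a` for `12 (1 + log a) ≤ a` -/
lemma pow_le_three {a X : ℕ} (ha : 0 < a) (hX : 3 ≤ X) (h : 12 * Real.log a ≤ a) :
    a ^ 12 ≤ X ^ a := by
  have ha' : (0 : ℝ) < a := by exact_mod_cast ha
  have h1 : ((a : ℝ)) ^ 12 ≤ (X : ℝ) ^ a := by
    calc ((a : ℝ)) ^ 12 = Real.exp (12 * Real.log a) := by
          rw [show (12 : ℝ) * Real.log a = ((12 : ℕ) : ℝ) * Real.log a by norm_num,
            Real.exp_nat_mul, Real.exp_log ha']
      _ ≤ Real.exp a := Real.exp_le_exp.2 h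
      _ = Real.exp 1 ^ a := by rw [← Real.exp_nat_mul, mul_one]
      _ ≤ (X : ℝ) ^ a := by
          apply pow_le_pow_left₀ (Real.exp_pos 1).le
          have h2 := Real.exp_one_lt_d9
          have h3 : (3 : ℝ) ≤ X := by exact_mod_cast hX
          linarith
  exact_mod_cast h1

/-- the growth, in real numbers -/
lemma grow_real {a b t X q D : ℝ} (ha : 0 < a) (hD : 1 ≤ D) (hbD : b ≤ D * a) (_ : 0 ≤ b)
    (ht0 : 10 ^ 10 * D ^ 7 ≤ t / a) (hX : t / a < (X + 1) * (200 * q ^ 4))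
    (hq : q ^ 4 ≤ 1296 * D ^ 4) (hX3 : 3 ≤ X) :
    9 * (a + b) * (a + t) ≤ a ^ 2 * X ^ 3 := by
  obtain ⟨T, hT⟩ : ∃ T : ℝ, T = t / a := ⟨_, rfl⟩
  rw [← hT] at ht0 hX
  have hTt : t = T * a := by
    rw [hT]
    field_simp
  have hD7 : 1 ≤ D ^ 7 := one_le_pow₀ hD
  have hT1 : 1 ≤ T := by linarith
  have hT0 : 0 < T := by linarith
  have hX0 : 0 < X := by linarith
  have h1 : T ≤ 518400 * D ^ 4 * X := by
    calc T ≤ (X + 1) * (200 * q ^ 4) := hX.le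
      _ ≤ (2 * X) * (200 * (1296 * D ^ 4)) := by
          apply mul_le_mul (by linarith) (by linarith) (by positivity) (by linarith)
      _ = 518400 * D ^ 4 * X := by ring
  have h2 : 36 * D * T ≤ X ^ 3 := by
    have h3 : T ^ 3 ≤ (518400 * D ^ 4 * X) ^ 3 := pow_le_pow_left₀ hT0.le h1 3
    have h5 : (10 ^ 10 * D ^ 7) ^ 2 ≤ T ^ 2 := pow_le_pow_left₀ (by positivity) ht0 2
    have h8 : (36 * D * T) * (518400 * D ^ 4) ^ 3 ≤ X ^ 3 * (518400 * D ^ 4) ^ 3 := by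
      calc (36 * D * T) * (518400 * D ^ 4) ^ 3 = (36 * 518400 ^ 3 * D ^ 13) * T := by ring
        _ ≤ (10 ^ 10 * D ^ 7) ^ 2 * T := by
            apply mul_le_mul_of_nonneg_right _ hT0.le
            have h9 : D ^ 13 ≤ D ^ 14 := pow_le_pow_right₀ hD (by norm_num)
            have h10 : 0 ≤ D ^ 13 := by positivity
            calc (36 : ℝ) * 518400 ^ 3 * D ^ 13 ≤ 10 ^ 20 * D ^ 13 :=
                  mul_le_mul_of_nonneg_right (by norm_num) h10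
              _ ≤ 10 ^ 20 * D ^ 14 := mul_le_mul_of_nonneg_left h9 (by norm_num)
              _ = (10 ^ 10 * D ^ 7) ^ 2 := by ring
        _ ≤ T ^ 2 * T := mul_le_mul_of_nonneg_right h5 hT0.le
        _ = T ^ 3 := by ring
        _ ≤ (518400 * D ^ 4 * X) ^ 3 := h3
        _ = X ^ 3 * (518400 * D ^ 4) ^ 3 := by ring
    exact le_of_mul_le_mul_right h8 (by positivity)
  have h3 : a + b ≤ 2 * (D * a) := by
    have : a ≤ D * a := le_mul_of_one_le_left ha.le hD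
    linarith
  have h5 : a + t ≤ 2 * (T * a) := by
    have : a ≤ T * a := le_mul_of_one_le_left ha.le hT1
    rw [hTt]
    linarith
  have h6 : 0 ≤ a + t := by
    rw [hTt]
    positivity
  calc 9 * (a + b) * (a + t) ≤ (9 * (2 * (D * a))) * (2 * (T * a)) :=
        mul_le_mul (by linarith) h5 h6 (by positivity)
    _ = a ^ 2 * (36 * D * T) := by ring
    _ ≤ a ^ 2 * X ^ 3 := mul_le_mul_of_nonneg_left h2 (by positivity)

/-- `X` is large -/
lemma X_real {T X q D : ℝ} (hD : 1 ≤ D) (ht0 : 10 ^ 10 * D ^ 7 ≤ T)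
    (hX : T < (X + 1) * (200 * q ^ 4)) (hq : q ^ 4 ≤ 1296 * D ^ 4) (hX0 : 0 ≤ X) : 3 ≤ X := by
  have h1 : (10 ^ 4 * D ^ 3) * (200 * 1296 * D ^ 4) ≤ (X + 1) * (200 * 1296 * D ^ 4) := by
    calc (10 ^ 4 * D ^ 3) * (200 * 1296 * D ^ 4) = (10 ^ 4 * 200 * 1296) * D ^ 7 := by ring
      _ ≤ 10 ^ 10 * D ^ 7 := mul_le_mul_of_nonneg_right (by norm_num) (by positivity)
      _ ≤ T := ht0
      _ ≤ (X + 1) * (200 * q ^ 4) := hX.le
      _ ≤ (X + 1) * (200 * 1296 * D ^ 4) :=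
          mul_le_mul_of_nonneg_left (by linarith) (by linarith)
  have h2 := le_of_mul_le_mul_right h1 (by positivity)
  have hD3 : 1 ≤ D ^ 3 := one_le_pow₀ hD
  linarith

/-- the number `q` -/
lemma q_real {a b t q D : ℝ} (ha : 0 < a) (hD : 1 ≤ D) (hbD : b ≤ D * a)
    (hta : 40000 * (t / a) ≤ b) (hq2 : q * a ^ 2 ≤ 5 * a ^ 2 + 300 * t) :
    q * a ≤ 5 * a + 300 * (t / a) ∧ q ≤ 6 * D := by
  have hqa : q * a ≤ 5 * a + 300 * (t / a) := by
    have h1 : (q * a) * a ≤ (5 * a + 300 * (t / a)) * a := by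
      have : (5 * a + 300 * (t / a)) * a = 5 * a ^ 2 + 300 * t := by
        field_simp
      rw [this]
      linarith
    exact le_of_mul_le_mul_right h1 ha
  refine ⟨hqa, ?_⟩
  have h1 : q * a ≤ (6 * D) * a := by
    have h5 : a ≤ D * a := le_mul_of_one_le_left ha.le hD
    linarith
  exact le_of_mul_le_mul_right h1 ha

/-- the number `w / A` -/
lemma W_real {a t u v q w W A : ℝ} (ha : 0 < a) (hA9 : a ≤ 9 * A) (hW0 : 0 ≤ W)
    (hu : u * q * a ≤ t) (hv : v * (100 * q ^ 2) ≤ a)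
    (hw : w = q * a * (2 * u + q + q * v + q) + 4 * (2 * u + q) * q * a) (hW : W * A ≤ w) :
    W ≤ 90 * (t / a) + 54 * q ^ 2 + 9 * a / 100 := by
  have hwR : w ≤ 10 * t + 6 * q ^ 2 * a + a ^ 2 / 100 := by
    have e1 : w = 10 * (u * q * a) + 6 * q ^ 2 * a + (v * (100 * q ^ 2)) * a / 100 := by
      rw [hw]
      ring
    have h2 : (v * (100 * q ^ 2)) * a ≤ a * a := mul_le_mul_of_nonneg_right hv ha.le
    rw [e1, sq a]
    linarith
  have h1 : W * a ≤ (90 * (t / a) + 54 * q ^ 2 + 9 * a / 100) * a := by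
    have e1 : (90 * (t / a) + 54 * q ^ 2 + 9 * a / 100) * a =
        90 * t + 54 * q ^ 2 * a + 9 * a ^ 2 / 100 := by
      field_simp
    rw [e1]
    have h2 : W * a ≤ W * (9 * A) := mul_le_mul_of_nonneg_left hA9 hW0
    linarith
  exact le_of_mul_le_mul_right h1 ha

/-- the numbers `u = t / a / q`, `v = a / m` -/
lemma uv_nat {a q t m u v : ℕ} (ha : 0 < a) (hq5 : 5 ≤ q) (hq1 : 300 * t ≤ q * a ^ 2)
    (hm : m = 100 * q ^ 2) (hu : u = t / a / q) (hv : v = a / m) :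
    (u : ℝ) * q * a ≤ t ∧ 300 * (u : ℝ) ≤ a ∧ (v : ℝ) * (100 * (q : ℝ) ^ 2) ≤ a ∧
      (q : ℝ) * v * 500 ≤ a := by
  have haR : (0 : ℝ) < a := by exact_mod_cast ha
  have hq5R : (5 : ℝ) ≤ q := by exact_mod_cast hq5
  have hq1R : 300 * (t : ℝ) ≤ q * (a : ℝ) ^ 2 := by exact_mod_cast hq1
  have hmR : (m : ℝ) = 100 * (q : ℝ) ^ 2 := by rw [hm]; push_cast; ring
  have hu1 : u * q * a ≤ t := by
    rw [hu]
    calc t / a / q * q * a ≤ t / a * a := Nat.mul_le_mul_right _ (Nat.div_mul_le_self _ _)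
      _ ≤ t := Nat.div_mul_le_self _ _
  have hu1R : (u : ℝ) * q * a ≤ t := by exact_mod_cast hu1
  have hv1 : v * m ≤ a := by rw [hv]; exact Nat.div_mul_le_self _ _
  have hv1R : (v : ℝ) * (100 * (q : ℝ) ^ 2) ≤ a := by
    rw [← hmR]
    exact_mod_cast hv1
  have hv0 : (0 : ℝ) ≤ v := Nat.cast_nonneg _
  refine ⟨hu1R, ?_, hv1R, ?_⟩
  · have h1 : (300 * (u : ℝ)) * (q * a) ≤ a * (q * a) := by
      calc (300 * (u : ℝ)) * (q * a) = 300 * (u * q * a) := by ring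
        _ ≤ 300 * t := by linarith
        _ ≤ q * (a : ℝ) ^ 2 := hq1R
        _ = a * (q * a) := by ring
    exact le_of_mul_le_mul_right h1 (by positivity)
  · refine le_trans ?_ hv1R
    calc (q : ℝ) * v * 500 = (v * (100 * q)) * 5 := by ring
      _ ≤ (v * (100 * q)) * q := mul_le_mul_of_nonneg_left hq5R (by positivity)
      _ = (v : ℝ) * (100 * (q : ℝ) ^ 2) := by ring

/-- the upper estimate for `t` by `X` -/
lemma X_nat {a q t m u X : ℕ} (ha : 0 < a) (hq5 : 5 ≤ q) (hm : m = 100 * q ^ 2)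
    (hu : u = t / a / q) (hX : X = u / (2 * m * q)) :
    (t : ℝ) / a < (X + 1) * (200 * (q : ℝ) ^ 4) := by
  have haR : (0 : ℝ) < a := by exact_mod_cast ha
  have hq0 : 0 < q := by omega
  have h1 : X = t / (a * (q * (2 * m * q))) := by
    rw [hX, hu, Nat.div_div_eq_div_mul, Nat.div_div_eq_div_mul]
  have h2 : a * (q * (2 * m * q)) = 200 * q ^ 4 * a := by
    rw [hm]
    ring
  rw [h2] at h1
  have h3 := Nat.lt_mul_div_succ t (show 0 < 200 * q ^ 4 * a by positivity)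
  rw [← h1, Nat.mul_comm] at h3
  have h4 : (t : ℝ) < (X + 1) * (200 * (q : ℝ) ^ 4 * a) := by exact_mod_cast h3
  rw [div_lt_iff₀ haR]
  linarith

/-- the gain -/
lemma gain_nat {a b t X k c q : ℕ} (ha : 4 ≤ a) (hX : 3 ≤ X) (hq : 5 ≤ q)
    (hg : 9 * (a + b) * (a + t) ≤ a ^ 2 * X ^ 3) (hk : 20 * k ≤ b) (hb : b ≤ a * a) (hc : c ≤ a)
    (hl : 12 * Real.log a ≤ a) :
    (a + b).choose a * (a + t - 1).choose t * (k * 5 * c + 1) ^ 4 ≤ X ^ ((q - 1) * a) := by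
  have h1 := TL.H968.core a b t (X ^ 3) (by omega) hg
  have h2 : k * 5 * c + 1 ≤ a ^ 3 := by
    have h6 : 4 * (k * 5 * c) ≤ a ^ 3 := by
      calc 4 * (k * 5 * c) = 20 * k * c := by ring
        _ ≤ a * a * a := Nat.mul_le_mul (hk.trans hb) hc
        _ = a ^ 3 := by ring
    have h8 : a ≤ a ^ 3 := Nat.le_self_pow (by norm_num) a
    omega
  have h3 : (k * 5 * c + 1) ^ 4 ≤ X ^ a := by
    calc (k * 5 * c + 1) ^ 4 ≤ (a ^ 3) ^ 4 := Nat.pow_le_pow_left h2 4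
      _ = a ^ 12 := by ring
      _ ≤ X ^ a := pow_le_three (by omega) hX hl
  calc (a + b).choose a * (a + t - 1).choose t * (k * 5 * c + 1) ^ 4
      ≤ (X ^ 3) ^ a * X ^ a := Nat.mul_le_mul h1 h3
    _ = X ^ (4 * a) := by ring
    _ ≤ X ^ ((q - 1) * a) :=
        Nat.pow_le_pow_right (by omega) (Nat.mul_le_mul_right a (by omega))

/-- the number `E` -/
lemma E_real {a b t D L K : ℝ} (ha : 0 < a) (hD : 1 ≤ D) (hL : 1 ≤ L) (hK : 1 ≤ K)
    (hbD : b ≤ D * a) (ht : 10 ^ 10 * K * D ^ 7 * L * a ≤ t) (h4 : 40000 * t ≤ a * b) :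
    ∃ E : ℝ, 1 ≤ E ∧ D ≤ E ∧ D ^ 2 ≤ E ∧ L ≤ E ∧ K ≤ E ∧ 10 ^ 10 * D ^ 7 ≤ t / a ∧
      10 ^ 14 * E ≤ a ∧ 40000 * (t / a) ≤ b := by
  have hDD : D ^ 2 ≤ D ^ 6 := pow_le_pow_right₀ hD (by norm_num)
  have hD6 : 1 ≤ D ^ 6 := one_le_pow₀ hD
  have hKD : 1 ≤ K * D ^ 6 := one_le_mul_of_one_le_of_one_le hK hD6
  have h6 : D ^ 6 ≤ K * D ^ 6 * L :=
    (le_mul_of_one_le_left (by positivity) hK).trans (le_mul_of_one_le_right (by positivity) hL)
  have hE1 : D ^ 2 ≤ K * D ^ 6 * L := hDD.trans h6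
  have hE2 : L ≤ K * D ^ 6 * L := le_mul_of_one_le_left (by positivity) hKD
  have hE3 : K ≤ K * D ^ 6 * L :=
    (le_mul_of_one_le_right (by positivity) hD6).trans
      (le_mul_of_one_le_right (by positivity) hL)
  refine ⟨K * D ^ 6 * L, hL.trans hE2, le_trans (le_self_pow₀ hD (by norm_num)) hE1, hE1, hE2,
    hE3, ?_, ?_, ?_⟩
  · rw [le_div_iff₀ ha]
    calc 10 ^ 10 * D ^ 7 * a = (10 ^ 10 * a * D) * D ^ 6 := by ring
      _ ≤ (10 ^ 10 * a * D) * (K * D ^ 6 * L) := mul_le_mul_of_nonneg_left h6 (by positivity)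
      _ = 10 ^ 10 * K * D ^ 7 * L * a := by ring
      _ ≤ t := ht
  · have h1 : (D * a) * (4 * 10 ^ 14 * (K * D ^ 6 * L)) ≤ (D * a) * a := by
      calc (D * a) * (4 * 10 ^ 14 * (K * D ^ 6 * L)) =
          40000 * (10 ^ 10 * K * D ^ 7 * L * a) := by ring
        _ ≤ 40000 * t := by linarith
        _ ≤ a * b := h4
        _ ≤ a * (D * a) := mul_le_mul_of_nonneg_left hbD ha.le
        _ = (D * a) * a := by ring
    have h2 := le_of_mul_le_mul_left h1 (by positivity)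
    have h3 : 0 ≤ K * D ^ 6 * L := by positivity
    linarith
  · rw [mul_div_assoc', div_le_iff₀ ha]
    linarith

/-- The parameters. -/
theorem core (N0 a₀ a b t : ℕ) (D L : ℝ) (hD : 1 ≤ D) (hL : 1 ≤ L) (hLa : Real.log a ≤ L)
    (ha : 0 < a) (hb : 100 * a ≤ b) (hbD : (b : ℝ) ≤ D * a)
    (ht : 10 ^ 10 * ((N0 : ℝ) + a₀ + 1) * D ^ 7 * L * a ≤ t) (h4 : 40000 * t ≤ a * b) :
    ∃ A k' c' s q m X w : ℕ, Par N0 a₀ a b t A k' c' s q m X w := by
  have haR : (0 : ℝ) < a := by exact_mod_cast ha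
  obtain ⟨K, hK⟩ : ∃ K : ℝ, K = (N0 : ℝ) + a₀ + 1 := ⟨_, rfl⟩
  rw [← hK] at ht
  have hN0 : (0 : ℝ) ≤ N0 := Nat.cast_nonneg _
  have ha₀ : (0 : ℝ) ≤ a₀ := Nat.cast_nonneg _
  have hK1 : 1 ≤ K := by rw [hK]; linarith
  have htR : (0 : ℝ) ≤ t := Nat.cast_nonneg _
  have h4R : 40000 * (t : ℝ) ≤ a * b := by exact_mod_cast h4
  have hbR : 100 * (a : ℝ) ≤ b := by exact_mod_cast hb
  obtain ⟨E, hE0, hE4, hE1, hE2, hE3, hta0, haE, hta⟩ := E_real haR hD hL hK1 hbD ht h4R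
  -- `q`
  obtain ⟨q, hq⟩ : ∃ q, q = 5 + 300 * t / a ^ 2 := ⟨_, rfl⟩
  have hq5 : 5 ≤ q := by
    rw [hq]
    exact Nat.le_add_right _ _
  have ha2 : 0 < a ^ 2 := by positivity
  have hq1 : 300 * t ≤ q * a ^ 2 := by
    have h1 := Nat.lt_mul_div_succ (300 * t) ha2
    have h2 : a ^ 2 * (300 * t / a ^ 2 + 1) ≤ q * a ^ 2 := by
      rw [Nat.mul_comm (a ^ 2)]
      exact Nat.mul_le_mul_right _ (by rw [hq]; omega)
    omega
  have hq2 : q * a ^ 2 ≤ 5 * a ^ 2 + 300 * t := by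
    rw [hq, add_mul]
    have := Nat.div_mul_le_self (300 * t) (a ^ 2)
    omega
  have hq2R : q * (a : ℝ) ^ 2 ≤ 5 * (a : ℝ) ^ 2 + 300 * t := by exact_mod_cast hq2
  obtain ⟨hqa, hqD⟩ := q_real haR hD hbD hta hq2R
  have hq0 : (0 : ℝ) ≤ q := Nat.cast_nonneg _
  have hqE : (q : ℝ) ^ 2 ≤ 36 * E := by
    calc (q : ℝ) ^ 2 ≤ (6 * D) ^ 2 := pow_le_pow_left₀ hq0 hqD 2
      _ = 36 * D ^ 2 := by ring
      _ ≤ 36 * E := by linarith
  have hq4 : (q : ℝ) ^ 4 ≤ 1296 * D ^ 4 := by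
    calc (q : ℝ) ^ 4 ≤ (6 * D) ^ 4 := pow_le_pow_left₀ hq0 hqD 4
      _ = 1296 * D ^ 4 := by ring
  -- `m`, `X`, `u`, `v`, `w`, `A`
  obtain ⟨m, hm⟩ : ∃ m, m = 100 * q ^ 2 := ⟨_, rfl⟩
  obtain ⟨u, hu⟩ : ∃ u, u = t / a / q := ⟨_, rfl⟩
  obtain ⟨v, hv⟩ : ∃ v, v = a / m := ⟨_, rfl⟩
  obtain ⟨X, hX⟩ : ∃ X, X = u / (2 * m * q) := ⟨_, rfl⟩
  obtain ⟨w, hw⟩ : ∃ w, w = q * a * (2 * u + q + q * v + q) + 4 * (2 * u + q) * q * a := ⟨_, rfl⟩
  obtain ⟨A, hA⟩ : ∃ A, A = a / 8 := ⟨_, rfl⟩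
  have hm0 : 1 ≤ m := by
    rw [hm]
    have : 0 < q := by omega
    exact Nat.succ_le_of_lt (by positivity)
  obtain ⟨hu1R, hu300, hv1R, hqv⟩ := uv_nat ha hq5 hq1 hm hu hv
  have hA1 : (a : ℝ) ≤ 8 * A + 7 := by
    have : a ≤ 8 * A + 7 := by omega
    exact_mod_cast this
  have hA2 : 8 * (A : ℝ) ≤ a := by
    have : 8 * A ≤ a := by omega
    exact_mod_cast this
  have hA9 : (a : ℝ) ≤ 9 * A := by linarith
  -- `X` is large
  have hX2 := X_nat ha hq5 hm hu hX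
  have hX3R : (3 : ℝ) ≤ X := X_real hD hta0 hX2 hq4 (Nat.cast_nonneg _)
  have hX3 : 3 ≤ X := by exact_mod_cast hX3R
  have hgrow := grow_real haR hD hbD (Nat.cast_nonneg b) hta0 hX2 hq4 hX3R
  have hgrowN : 9 * (a + b) * (a + t) ≤ a ^ 2 * X ^ 3 := by exact_mod_cast hgrow
  -- the block number
  obtain ⟨k, hk1, hk2, hk3, hk4⟩ := exists_k b t (by
    have : (40 : ℝ) ≤ b := by linarith
    exact_mod_cast this)
  have hk2R : 20 * (k : ℝ) ≤ b := by exact_mod_cast hk2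
  have hk3R : (b : ℝ) < 20 * k + 40 := by exact_mod_cast hk3
  have hnn : nn 1 = 5 := rfl
  have htAB : t ≤ A * (k * 5) := by
    have h1 : (t : ℝ) ≤ A * (k * 5) := by
      have h2 : (b : ℝ) ≤ 5 * (k * 5) := by linarith
      have h3 : (a : ℝ) * b ≤ (9 * A) * (5 * (k * 5)) :=
        mul_le_mul hA9 h2 (by linarith) (by linarith)
      linarith
    exact_mod_cast h1
  obtain ⟨c, s, hs, hc, hcA⟩ := exists_c A (k * 5) t (by omega) htAB hk4
  have hcR : (c : ℝ) ≤ A + 2 := by exact_mod_cast hcA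
  have hszA : 2 * (2 * u + q + q * v + q + 1) ≤ A := by
    have h1 : 2 * (2 * (u : ℝ) + q + q * v + q + 1) ≤ A := by linarith
    exact_mod_cast h1
  have hszB : 3 * q * a + 3 * (w / A) + 3 ≤ k * 5 := by
    obtain ⟨W, hW⟩ : ∃ W, W = w / A := ⟨_, rfl⟩
    rw [← hW]
    have hW1 : W * A ≤ w := by rw [hW]; exact Nat.div_mul_le_self _ _
    have hW1R : (W : ℝ) * A ≤ w := by exact_mod_cast hW1
    have hwR : (w : ℝ) = q * a * (2 * u + q + q * v + q) + 4 * (2 * u + q) * q * a := by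
      rw [hw]
      push_cast
      ring
    have hWa := W_real haR hA9 (Nat.cast_nonneg W) hu1R hv1R hwR hW1R
    have h1 : 3 * (q : ℝ) * a + 3 * W + 3 ≤ k * 5 := by linarith
    exact_mod_cast h1
  have hfa : A + 5 * c + N0 + a₀ ≤ a := by
    have h1 : (A : ℝ) + 5 * c + N0 + a₀ ≤ a := by linarith
    exact_mod_cast h1
  have hfB : a₀ ≤ k * 5 := by
    have h1 : (a₀ : ℝ) ≤ k * 5 := by linarith
    exact_mod_cast h1
  have hgain : (a + b).choose a * (a + t - 1).choose t * (k * 5 * c + 1) ^ 4 ≤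
      X ^ ((q - 1) * a) := by
    apply gain_nat _ hX3 hq5 hgrowN hk2 _ _ (by linarith)
    · have : (4 : ℝ) ≤ a := by linarith
      exact_mod_cast this
    · have h3 : (b : ℝ) ≤ a * a := by
        refine hbD.trans (mul_le_mul_of_nonneg_right ?_ haR.le)
        linarith
      exact_mod_cast h3
    · have : (c : ℝ) ≤ a := by linarith
      exact_mod_cast this
  exact ⟨A, k, c, s, q, m, X, w,
    { ha := ha
      hA := by omega
      hq := by omega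
      hm := hm0
      hX := by omega
      hk := hk1
      hs := hs
      key := by
        rw [← hu, hX]
        exact Nat.mul_div_le u _
      szA := by rw [← hu, ← hv]; exact hszA
      szw := by rw [← hu, ← hv, hw]
      szB := hszB
      al := hc
      fa := hfa
      fB := hfB
      fb := by
        change 4 * (k * 5) ≤ b
        omega
      par := hk4
      gain := hgain }⟩

/-- **(NUM)** the parameters exist. -/
theorem numG : NumG := by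
  intro N0 a₀ C₀ c₀ hC₀ hc₀
  obtain ⟨e, he⟩ : ∃ e, e = ⌈c₀⌉₊ := ⟨_, rfl⟩
  obtain ⟨C₁, hC₁⟩ : ∃ C₁ : ℝ, C₁ = C₀ + 1 := ⟨_, rfl⟩
  have hC1 : 1 ≤ C₁ := by rw [hC₁]; linarith
  have hK : (0 : ℝ) < (N0 : ℝ) + a₀ + 1 := by positivity
  refine ⟨10 ^ 10 * ((N0 : ℝ) + a₀ + 1) * C₁ ^ 7, ((7 * e + 1 : ℕ) : ℝ), by positivity,
    by positivity, ?_⟩
  intro a b t ha hb hbC ht h4
  rw [Real.rpow_natCast] at ht
  have hlog : 0 ≤ Real.log a := Real.log_natCast_nonneg a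
  obtain ⟨L, hL⟩ : ∃ L : ℝ, L = 1 + Real.log a := ⟨_, rfl⟩
  rw [← hL] at hbC ht
  have hL1 : 1 ≤ L := by rw [hL]; linarith
  have hP1 : 1 ≤ L ^ e := one_le_pow₀ hL1
  have haR : (0 : ℝ) < a := by exact_mod_cast ha
  have hLP : L ^ c₀ ≤ L ^ e := by
    rw [← Real.rpow_natCast]
    apply Real.rpow_le_rpow_of_exponent_le hL1
    rw [he]
    exact Nat.le_ceil c₀
  refine core N0 a₀ a b t (C₁ * L ^ e) L (one_le_mul_of_one_le_of_one_le hC1 hP1) hL1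
    (by rw [hL]; linarith) ha hb ?_ ?_ h4
  · refine hbC.trans ?_
    have h1 : C₀ ≤ C₁ := by rw [hC₁]; linarith
    gcongr
  · refine le_trans (le_of_eq ?_) ht
    rw [mul_pow, ← pow_mul, Nat.mul_comm e 7, pow_succ]
    ring

end Vale.Agent.P181.GK.H694
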